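import Mathlib

/-!
# Row 250 (helper21): convergence of all jets along moving points

`JC l gk pk g p`: the points `pk` tend to `p` and all derivatives of `gk k` at `pk k` tend to those
of `g` at `p`.  Closed under composition (both maps may vary), pairs, `fderiv`.  Locally uniform
convergence of all derivatives on an open set is `JC` along `l ×ˢ 𝓝 p`.
-/

set_option autoImplicit false
open Set Filter Topology
open scoped ContDiff

noncomputable section

namespace Crest.Agent.N250.Cv

variable {α β : Type*} {X Y G : Type*} [NormedAddCommGroup X] [NormedSpace ℝ X]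
  [NormedAddCommGroup Y] [NormedSpace ℝ Y] [NormedAddCommGroup G] [NormedSpace ℝ G]

/-- jets converge along moving points -/
structure JC (l : Filter α) (gk : α → X → G) (pk : α → X) (g : X → G) (p : X) : Prop where
  pt : Tendsto pk l (𝓝 p)
  smk : ∀ m : ℕ, ∀ᶠ k in l, ContDiffAt ℝ m (gk k) (pk k)
  sm : ContDiffAt ℝ ∞ g p
  jet : ∀ m : ℕ, Tendsto (fun k => iteratedFDeriv ℝ m (gk k) (pk k)) l
    (𝓝 (iteratedFDeriv ℝ m g p))

variable {l : Filter α} {gk hk : α → X → G} {pk : α → X} {g h : X → G} {p : X}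

theorem natle (m : ℕ) : (m : ℕ∞ω) ≤ ∞ := by exact_mod_cast le_top

theorem JC.val (H : JC l gk pk g p) : Tendsto (fun k => gk k (pk k)) l (𝓝 (g p)) := by
  have := ((continuousMultilinearCurryFin0 ℝ X G).continuous.tendsto _).comp (H.jet 0)
  simpa [Function.comp_def, iteratedFDeriv_zero_eq_comp] using this

theorem cont_iter (hg : ContDiffAt ℝ ∞ g p) (m : ℕ) : ContinuousAt (iteratedFDeriv ℝ m g) p :=
  (hg.iteratedFDeriv_right (m := 0) (i := m) (by simpa using natle m)).continuousAt

/-- a fixed smooth map -/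
theorem JC.const (hg : ContDiffAt ℝ ∞ g p) (hp : Tendsto pk l (𝓝 p)) :
    JC l (fun _ => g) pk g p :=
  ⟨hp, fun m => hp.eventually ((hg.of_le (natle m)).eventually (by simp)), hg,
    fun m => (cont_iter hg m).tendsto.comp hp⟩

theorem JC.comp_filter {l' : Filter β} {f : β → α} (H : JC l gk pk g p) (hf : Tendsto f l' l) :
    JC l' (fun k => gk (f k)) (fun k => pk (f k)) g p :=
  ⟨H.pt.comp hf, fun m => hf.eventually (H.smk m), H.sm, fun m => (H.jet m).comp hf⟩

theorem JC.congr (H : JC l gk pk g p) (h1 : ∀ᶠ k in l, gk k =ᶠ[𝓝 (pk k)] hk k)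
    (h2 : g =ᶠ[𝓝 p] h) : JC l hk pk h p := by
  refine ⟨H.pt, fun m => ?_, H.sm.congr_of_eventuallyEq h2.symm, fun m => ?_⟩
  · filter_upwards [H.smk m, h1] with k a b using a.congr_of_eventuallyEq b.symm
  · rw [← (h2.iteratedFDeriv ℝ m).eq_of_nhds]
    refine (H.jet m).congr' ?_
    filter_upwards [h1] with k b using (b.iteratedFDeriv ℝ m).eq_of_nhds

theorem JC.comp {fk : α → G → Y} {f : G → Y}
    (Hf : JC l fk (fun k => gk k (pk k)) f (g p)) (H : JC l gk pk g p) :
    JC l (fun k x => fk k (gk k x)) pk (fun x => f (g x)) p := by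
  refine ⟨H.pt, fun m => ?_, Hf.sm.comp p H.sm, fun m => ?_⟩
  · filter_upwards [H.smk m, Hf.smk m] with k a b using b.comp (pk k) a
  · have e1 := iteratedFDeriv_comp (Hf.sm.of_le (natle m)) (H.sm.of_le (natle m)) (i := m) le_rfl
    have e2 : ∀ᶠ k in l, (ftaylorSeries ℝ (fk k) (gk k (pk k))).taylorComp
        (ftaylorSeries ℝ (gk k) (pk k)) m =
        iteratedFDeriv ℝ m (fun x => fk k (gk k x)) (pk k) := by
      filter_upwards [H.smk m, Hf.smk m] with k a b
      exact (iteratedFDeriv_comp b a (i := m) le_rfl).symm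
    refine Tendsto.congr' e2 ?_
    rw [show (fun x => f (g x)) = f ∘ g from rfl, e1, ← tendsto_sub_nhds_zero_iff,
      ← Asymptotics.isLittleO_one_iff ℝ]
    refine FormalMultilinearSeries.taylorComp_sub_taylorComp_isLittleO
      (p₂ := fun _ => ftaylorSeries ℝ f (g p)) (q₂ := fun _ => ftaylorSeries ℝ g p)
      (fun j _ => (Hf.jet j).norm.isBoundedUnder_le) (fun j _ => ?_)
      (fun j _ => (H.jet j).norm.isBoundedUnder_le) (fun j _ => isBoundedUnder_const)
      (fun j _ => ?_)
    · exact (Asymptotics.isLittleO_one_iff ℝ).2 (tendsto_sub_nhds_zero_iff.2 (Hf.jet j))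
    · exact (Asymptotics.isLittleO_one_iff ℝ).2 (tendsto_sub_nhds_zero_iff.2 (H.jet j))

/-- composition with a fixed smooth outer map -/
theorem JC.map {f : G → Y} (H : JC l gk pk g p) (hf : ContDiffAt ℝ ∞ f (g p)) :
    JC l (fun k x => f (gk k x)) pk (fun x => f (g x)) p :=
  (JC.const hf H.val).comp H

theorem JC.prodMk {uk : α → X → Y} {u : X → Y} (H : JC l gk pk g p) (H' : JC l uk pk u p) :
    JC l (fun k x => (gk k x, uk k x)) pk (fun x => (g x, u x)) p := by
  refine ⟨H.pt, fun m => ?_, H.sm.prodMk H'.sm, fun m => ?_⟩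
  · filter_upwards [H.smk m, H'.smk m] with k a b using a.prodMk b
  · rw [iteratedFDeriv_prodMk H.sm H'.sm (natle m)]
    have := ((ContinuousMultilinearMap.prodL ℝ (fun _ : Fin m => X) G Y).continuous.tendsto _).comp
      ((H.jet m).prodMk_nhds (H'.jet m))
    refine Tendsto.congr' ?_ this
    filter_upwards [H.smk m, H'.smk m] with k a b
    rw [iteratedFDeriv_prodMk a b le_rfl]; rfl

theorem JC.map₂ {Z : Type*} [NormedAddCommGroup Z] [NormedSpace ℝ Z] {uk : α → X → Y} {u : X → Y}
    {f : G × Y → Z} (H : JC l gk pk g p) (H' : JC l uk pk u p) (hf : ContDiffAt ℝ ∞ f (g p, u p)) :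
    JC l (fun k x => f (gk k x, uk k x)) pk (fun x => f (g x, u x)) p :=
  (H.prodMk H').map hf

theorem JC.fderiv (H : JC l gk pk g p) :
    JC l (fun k => fderiv ℝ (gk k)) pk (fderiv ℝ g) p := by
  refine ⟨H.pt, fun m => ?_, H.sm.fderiv_right (m := ∞) (by simp), fun m => ?_⟩
  · filter_upwards [H.smk (m + 1)] with k a using a.fderiv_right (m := m) (by simp)
  · have := ((continuousMultilinearCurryRightEquiv' ℝ m X G).continuous.tendsto _).comp
      (H.jet (m + 1))
    simpa [Function.comp_def, iteratedFDeriv_succ_eq_comp_right] using this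

theorem JC.add (H : JC l gk pk g p) (H' : JC l hk pk h p) :
    JC l (fun k x => gk k x + hk k x) pk (fun x => g x + h x) p :=
  H.map₂ H' (f := fun z => z.1 + z.2) (by fun_prop)

theorem JC.sub (H : JC l gk pk g p) (H' : JC l hk pk h p) :
    JC l (fun k x => gk k x - hk k x) pk (fun x => g x - h x) p :=
  H.map₂ H' (f := fun z => z.1 - z.2) (by fun_prop)

theorem JC.smul {ck : α → X → ℝ} {c : X → ℝ} (H : JC l ck pk c p) (H' : JC l gk pk g p) :
    JC l (fun k x => ck k x • gk k x) pk (fun x => c x • g x) p :=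
  H.map₂ H' (f := fun z => z.1 • z.2) (by fun_prop)

theorem JC.mul {ck dk : α → X → ℝ} {c d : X → ℝ} (H : JC l ck pk c p) (H' : JC l dk pk d p) :
    JC l (fun k x => ck k x * dk k x) pk (fun x => c x * d x) p := H.smul H'

theorem JC.clm_apply {Lk : α → X → Y →L[ℝ] G} {L : X → Y →L[ℝ] G} {uk : α → X → Y} {u : X → Y}
    (H : JC l Lk pk L p) (H' : JC l uk pk u p) :
    JC l (fun k x => Lk k x (uk k x)) pk (fun x => L x (u x)) p :=
  H.map₂ H' (f := fun z : (Y →L[ℝ] G) × Y => z.1 z.2)
    (contDiffAt_fst.clm_apply contDiffAt_snd)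

/-- moving constants -/
theorem JC.cst {ck : α → G} {c : G} (hc : Tendsto ck l (𝓝 c)) (hp : Tendsto pk l (𝓝 p)) :
    JC l (fun k _ => ck k) pk (fun _ => c) p := by
  refine ⟨hp, fun m => .of_forall fun k => contDiffAt_const, contDiffAt_const, fun m => ?_⟩
  cases m with
  | zero =>
    have := ((continuousMultilinearCurryFin0 ℝ X G).symm.continuous.tendsto _).comp hc
    simpa [Function.comp_def, iteratedFDeriv_zero_eq_comp] using this
  | succ m => simpa [iteratedFDeriv_succ_const] using tendsto_const_nhds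

theorem JC.id (hp : Tendsto pk l (𝓝 p)) : JC l (fun _ x => x) pk (fun x => x) p :=
  JC.const contDiffAt_id hp

/-- from locally uniform convergence of all derivatives -/
theorem jc_of_tlu {W : Set X} (hW : IsOpen W) (hg : ContDiffOn ℝ ∞ g W)
    (hk : ∀ᶠ k in l, ContDiffOn ℝ ∞ (gk k) W)
    (ht : ∀ m : ℕ, TendstoLocallyUniformlyOn (fun k => iteratedFDeriv ℝ m (gk k))
      (iteratedFDeriv ℝ m g) l W) (hp : p ∈ W) (hpk : Tendsto pk l (𝓝 p)) : JC l gk pk g p := by
  have hm := hpk.eventually (hW.mem_nhds hp)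
  have hs := hg.contDiffAt (hW.mem_nhds hp)
  refine ⟨hpk, fun m => ?_, hs, fun m => ?_⟩
  · filter_upwards [hk, hm] with k a b using (a.contDiffAt (hW.mem_nhds b)).of_le (natle m)
  · exact (ht m).tendsto_comp (cont_iter hs m).continuousWithinAt hp
      (tendsto_nhdsWithin_iff.2 ⟨hpk, hm⟩)

/-- the product form -/
theorem jc_prod_of_tlu {W : Set X} (hW : IsOpen W) (hg : ContDiffOn ℝ ∞ g W)
    (hk : ∀ᶠ k in l, ContDiffOn ℝ ∞ (gk k) W)
    (ht : ∀ m : ℕ, TendstoLocallyUniformlyOn (fun k => iteratedFDeriv ℝ m (gk k))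
      (iteratedFDeriv ℝ m g) l W) (hp : p ∈ W) {l' : Filter β} {f : β → α} (hf : Tendsto f l' l)
    {qk : β → X} (hq : Tendsto qk l' (𝓝 p)) : JC l' (fun k => gk (f k)) qk g p :=
  jc_of_tlu hW hg (hf.eventually hk) (fun m => fun u hu x hx => by
    obtain ⟨t, ht1, ht2⟩ := ht m u hu x hx
    exact ⟨t, ht1, hf.eventually ht2⟩) hp hq

/-- back to locally uniform convergence -/
theorem tlu_of_jc {W : Set X} (hW : IsOpen W)
    (H : ∀ p ∈ W, JC (l ×ˢ 𝓝 p) (fun y : α × X => gk y.1) Prod.snd g p) (m : ℕ) :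
    TendstoLocallyUniformlyOn (fun k => iteratedFDeriv ℝ m (gk k)) (iteratedFDeriv ℝ m g) l W := by
  rw [hW.tendstoLocallyUniformlyOn_iff_forall_tendsto]
  intro p hp
  have h1 := (cont_iter (H p hp).sm m).tendsto.comp (H p hp).pt
  exact (Uniform.tendsto_nhds_left.1 h1).uniformity_symm.uniformity_symm.uniformity_trans
    (Uniform.tendsto_nhds_right.1 ((H p hp).jet m)).uniformity_symm.uniformity_symm

end Crest.Agent.N250.Cv

end
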