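import Crest.Agent.N250.T.Stm
import Crest.Agent.N250.Tr.Base
import Crest.Agent.N250.Cv.Jc

/-!
# Row 250 (helper21): `ConvJetS`

The tangential jets are ambient expressions (`aDL`) in a defining function; they converge by `JC`.
-/

set_option autoImplicit false
open MeasureTheory Set Filter Topology
open scoped ContDiff InnerProductSpace
open Crest.GeometryTopology.MCF

noncomputable section

namespace Crest.Agent.N250.Cv

open Tr

/-- spatial gradient through `fderiv` -/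
def gr (φ : ST → ℝ) (q : ST) : E :=
  (InnerProductSpace.toDual ℝ E).symm ((fderiv ℝ φ q).comp (ContinuousLinearMap.inl ℝ E ℝ))

/-- ambient unit normal -/
def aN (φ : ST → ℝ) (q : ST) : E := ‖gr φ q‖⁻¹ • gr φ q

/-- ambient normal speed -/
def aV (φ : ST → ℝ) (q : ST) : ℝ := -fderiv ℝ φ q (0, 1) * ‖gr φ q‖⁻¹

/-- ambient tangential derivative -/
def aD (φ : ST → ℝ) (a : Fin 3) (g : ST → ℝ) (q : ST) : ℝ :=
  fderiv ℝ g q (ee a - ⟪aN φ q, ee a⟫_ℝ • aN φ q, 0)

/-- iterated ambient tangential derivative -/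
def aDL (φ : ST → ℝ) (w : List (Fin 3)) (g : ST → ℝ) : ST → ℝ := w.foldr (aD φ) g

variable {F : Mv} {W : Set ST} {φ : ST → ℝ} {p : ST}

theorem gr_eq (h : DifferentiableAt ℝ φ p) : gr φ p = gradX φ p.1 p.2 := by
  apply ext_inner_right ℝ
  intro v
  rw [← fd_sp h]
  simp [gr, InnerProductSpace.toDual_symm_apply]

theorem gr_ne (h : F.Loc W φ) (hp : p ∈ W) : gr φ p ≠ 0 := by
  rw [gr_eq (loc_diff h hp)]; exact h.ne p hp

theorem n_eq_aN (h : F.Loc W φ) (hp : p ∈ W) (hM : p ∈ F.M) : F.n p = aN φ p := by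
  rw [aN, gr_eq (loc_diff h hp), h.n_eq p hp hM]

theorem V_eq_aV (h : F.Loc W φ) (hp : p ∈ W) (hM : p ∈ F.M) : F.V p = aV φ p := by
  rw [aV, gr_eq (loc_diff h hp), h.V_eq p hp hM, fd_tm (loc_diff h hp), div_eq_mul_inv]

theorem PL_mem_loc (h : F.Loc W φ) (hp : p ∈ W) (hM : p ∈ F.M) (v : E) :
    ((F.PL p v, 0) : ST) ∈ tangentConeAt ℝ F.M p := by
  refine ker_mem h hp hM ?_
  have hn : ‖gradX φ p.1 p.2‖ ≠ 0 := norm_ne_zero_iff.2 (h.ne p hp)
  rw [fd_sp (loc_diff h hp), Mv.PL, h.n_eq p hp hM]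
  simp only [inner_sub_right, inner_smul_right, inner_smul_left, real_inner_self_eq_norm_sq,
    conj_trivial]
  field_simp
  ring

section jc

variable {α : Type*} {l : Filter α} {φk gk : α → ST → ℝ} {pk : α → ST} {g : ST → ℝ}

theorem jc_gr (H : JC l φk pk φ p) : JC l (fun k => gr (φk k)) pk (gr φ) p :=
  H.fderiv.map (f := fun L : ST →L[ℝ] ℝ =>
      (InnerProductSpace.toDual ℝ E).symm (L.comp (ContinuousLinearMap.inl ℝ E ℝ)))
    ((InnerProductSpace.toDual ℝ E).symm.contDiff.contDiffAt.comp _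
      (contDiffAt_id.clm_comp contDiffAt_const))

theorem jc_ninv (H : JC l φk pk φ p) (h0 : gr φ p ≠ 0) :
    JC l (fun k q => ‖gr (φk k) q‖⁻¹) pk (fun q => ‖gr φ q‖⁻¹) p :=
  (jc_gr H).map (f := fun v : E => ‖v‖⁻¹)
    ((contDiffAt_id.norm ℝ h0).inv (norm_ne_zero_iff.2 h0))

theorem jc_aN (H : JC l φk pk φ p) (h0 : gr φ p ≠ 0) :
    JC l (fun k => aN (φk k)) pk (aN φ) p := (jc_ninv H h0).smul (jc_gr H)

theorem jc_aNa (H : JC l φk pk φ p) (h0 : gr φ p ≠ 0) (a : Fin 3) :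
    JC l (fun k q => aN (φk k) q a) pk (fun q => aN φ q a) p :=
  (jc_aN H h0).map (f := fun v : E => v a)
    (EuclideanSpace.proj a : E →L[ℝ] ℝ).contDiff.contDiffAt

theorem jc_aV (H : JC l φk pk φ p) (h0 : gr φ p ≠ 0) :
    JC l (fun k => aV (φk k)) pk (aV φ) p :=
  (H.fderiv.map (f := fun L : ST →L[ℝ] ℝ => -L (0, 1))
    (contDiffAt_id.clm_apply contDiffAt_const).neg).mul (jc_ninv H h0)

theorem jc_aD (H : JC l φk pk φ p) (h0 : gr φ p ≠ 0) (Hg : JC l gk pk g p) (a : Fin 3) :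
    JC l (fun k => aD (φk k) a (gk k)) pk (aD φ a g) p :=
  Hg.fderiv.clm_apply ((jc_aN H h0).map
    (f := fun v : E => ((ee a - ⟪v, ee a⟫_ℝ • v, 0) : ST))
    ((contDiffAt_const.sub ((contDiffAt_id.inner ℝ contDiffAt_const).smul contDiffAt_id)).prodMk
      contDiffAt_const))

theorem jc_aDL (H : JC l φk pk φ p) (h0 : gr φ p ≠ 0) (Hg : JC l gk pk g p) (w : List (Fin 3)) :
    JC l (fun k => aDL (φk k) w (gk k)) pk (aDL φ w g) p := by
  induction w with
  | nil => exact Hg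
  | cons a w ih => exact jc_aD H h0 ih a

end jc

theorem sm_of_jc {G : Type*} [NormedAddCommGroup G] [NormedSpace ℝ G] {g : ST → G}
    (H : JC (𝓝 p) (fun _ => g) (fun q => q) g p) : ContDiffAt ℝ ∞ g p := H.sm

theorem sm_aNa (h : F.Loc W φ) (hp : p ∈ W) (a : Fin 3) :
    ContDiffAt ℝ ∞ (fun q => aN φ q a) p :=
  (jc_aNa (l := 𝓝 p) (JC.const (loc_at h hp) tendsto_id) (gr_ne h hp) a).sm

theorem sm_aDL (h : F.Loc W φ) (hp : p ∈ W) {g : ST → ℝ} (hg : ContDiffAt ℝ ∞ g p)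
    (w : List (Fin 3)) : ContDiffAt ℝ ∞ (aDL φ w g) p :=
  (jc_aDL (l := 𝓝 p) (JC.const (loc_at h hp) tendsto_id) (gr_ne h hp)
    (JC.const hg tendsto_id) w).sm

/-- tangential jets through an ambient extension -/
theorem DL_eq (h : F.Loc W φ) {f g : ST → ℝ} (hg : ∀ q ∈ W, ContDiffAt ℝ ∞ g q)
    (hfg : ∀ q ∈ W, q ∈ F.M → f q = g q) (w : List (Fin 3)) :
    ∀ q ∈ W, q ∈ F.M → F.DL w f q = aDL φ w g q := by
  induction w with
  | nil => exact hfg
  | cons a w ih =>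
    intro q hq hM
    have h1 : HasFDerivWithinAt (F.DL w f) (fderiv ℝ (aDL φ w g) q) F.M q := by
      refine ((sm_aDL h hq (hg q hq) w).differentiableAt
        (by simp)).hasFDerivAt.hasFDerivWithinAt.congr_of_eventuallyEq ?_ (ih q hq hM)
      filter_upwards [self_mem_nhdsWithin, mem_nhdsWithin_of_mem_nhds (h.isOpen.mem_nhds hq)]
        with r a b using ih r b a
    change F.D a (F.DL w f) q = aD φ a (aDL φ w g) q
    rw [D_def, td_eq h1 (PL_mem_loc h hq hM _), aD, Mv.PL, n_eq_aN h hq hM]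

theorem DL_nu_eq (h : F.Loc W φ) (w : List (Fin 3)) (a : Fin 3) (hp : p ∈ W) (hM : p ∈ F.M) :
    F.DL w (F.nu a) p = aDL φ w (fun q => aN φ q a) p :=
  DL_eq h (fun _ hq => sm_aNa h hq a)
    (fun q hq hM => by rw [Mv.nu, n_eq_aN h hq hM]) w p hp hM

/-- selection of nearby points in closed sets -/
theorem exists_tendsto_of_closed {α X : Type*} [MetricSpace X] [ProperSpace X] {l : Filter α}
    {S : α → Set X} {x : X} (hc : ∀ᶠ k in l, IsClosed (S k))
    (h : ∀ ε > 0, ∀ᶠ k in l, ∃ y ∈ S k, dist y x < ε) :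
    ∃ xk : α → X, Tendsto xk l (𝓝 x) ∧ ∀ᶠ k in l, xk k ∈ S k := by
  have : ∀ k, ∃ y, IsClosed (S k) → (S k).Nonempty → y ∈ S k ∧ Metric.infDist x (S k) = dist x y := by
    intro k
    by_cases h1 : IsClosed (S k) ∧ (S k).Nonempty
    · obtain ⟨y, hy⟩ := h1.1.exists_infDist_eq_dist h1.2 x
      exact ⟨y, fun _ _ => hy⟩
    · exact ⟨x, fun a b => (h1 ⟨a, b⟩).elim⟩
  choose xk hx using this
  refine ⟨xk, Metric.tendsto_nhds.2 fun ε hε => ?_, ?_⟩
  · filter_upwards [hc, h ε hε] with k a ⟨y, hy, hd⟩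
    rw [dist_comm, ← (hx k a ⟨y, hy⟩).2]
    exact (Metric.infDist_le_dist_of_mem hy).trans_lt (by rwa [dist_comm])
  · filter_upwards [hc, h 1 one_pos] with k a ⟨y, hy, _⟩ using (hx k a ⟨y, hy⟩).1

variable {α : Type*} {l : Filter α} {φk : α → ST → ℝ} {Fk : α → Mv}

/-- local form of the second half of `ConvJetS` -/
theorem exists_pts (h : F.Loc W φ) (hk : ∀ᶠ k in l, (Fk k).Loc W (φk k))
    (ht : ∀ m : ℕ, TendstoLocallyUniformlyOn (fun k => iteratedFDeriv ℝ m (φk k))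
      (iteratedFDeriv ℝ m φ) l W) (hp : p ∈ W) (hM : p ∈ F.M) {tk : α → ℝ}
    (htk : Tendsto tk l (𝓝 p.2)) :
    ∃ xk : α → E, Tendsto xk l (𝓝 p.1) ∧ ∀ᶠ k in l, (xk k, tk k) ∈ (Fk k).M := by
  obtain ⟨δ, hδ, hW⟩ := Metric.nhds_basis_closedBall.mem_iff.1 (h.isOpen.mem_nhds hp)
  have hin : ∀ᶠ k in l, ∀ x ∈ Metric.closedBall p.1 δ, (x, tk k) ∈ W := by
    filter_upwards [htk.eventually (Metric.closedBall_mem_nhds _ hδ)] with k a x hx
    exact hW (by rw [← closedBall_prod_same]; exact ⟨hx, a⟩)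
  have hJ : ∀ x ∈ Metric.closedBall p.1 δ,
      Tendsto (fun k => φk k (x, tk k)) l (𝓝 (φ (x, p.2))) := fun x hx =>
    (jc_of_tlu h.isOpen h.sm (hk.mono fun _ a => a.sm) ht
      (hW (by rw [← closedBall_prod_same]; exact ⟨hx, Metric.mem_closedBall_self hδ.le⟩))
      (tendsto_const_nhds.prodMk_nhds htk)).val
  obtain ⟨xk, h1, h2⟩ := exists_tendsto_of_closed (l := l) (x := p.1)
    (S := fun k => Metric.closedBall p.1 δ ∩ (fun x => φk k (x, tk k)) ⁻¹' {0}) (by
      filter_upwards [hk, hin] with k a b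
      exact (a.sm.continuousOn.comp (Continuous.prodMk_left _).continuousOn b
        ).preimage_isClosed_of_isClosed Metric.isClosed_closedBall isClosed_singleton) (by
      intro ε hε
      set v := gradX φ p.1 p.2 with hv
      have hv0 : 0 < ‖v‖ := norm_pos_iff.2 (h.ne p hp)
      have hd : HasDerivAt (fun s : ℝ => φ (p.1 + s • v, p.2)) (‖v‖ ^ 2) 0 := by
        have e1 : HasDerivAt (fun s : ℝ => ((p.1 + s • v, p.2) : ST)) (v, 0) 0 := by
          simpa using (((hasDerivAt_id (0 : ℝ)).smul_const v).const_add p.1).prodMk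
            (hasDerivAt_const (0 : ℝ) p.2)
        have e2 := (loc_diff h hp).hasFDerivAt.comp_hasDerivAt_of_eq (0 : ℝ) e1 (by simp)
        rwa [fd_sp (loc_diff h hp), ← hv, real_inner_self_eq_norm_sq] at e2
      have h0 : φ (p.1 + (0 : ℝ) • v, p.2) = 0 := by simpa using (h.mem p hp).1 hM
      have hs : ∀ᶠ s in 𝓝[≠] (0 : ℝ), 0 < slope (fun s : ℝ => φ (p.1 + s • v, p.2)) 0 s :=
        (hasDerivAt_iff_tendsto_slope.1 hd).eventually (lt_mem_nhds (by positivity))
      have hsm : ∀ᶠ s in 𝓝 (0 : ℝ), |s| * ‖v‖ < min ε δ := by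
        have : Tendsto (fun s : ℝ => |s| * ‖v‖) (𝓝 0) (𝓝 (|0| * ‖v‖)) :=
          (continuous_abs.mul continuous_const).tendsto 0
        exact this.eventually (gt_mem_nhds (by simpa using ⟨hε, hδ⟩))
      rw [eventually_nhdsWithin_iff] at hs
      obtain ⟨r, hr, hb⟩ := Metric.nhds_basis_closedBall.eventually_iff.1 (hs.and hsm)
      have hdist : ∀ s ∈ Icc (-r) r, dist (p.1 + s • v) p.1 < min ε δ := fun s hs => by
        rw [dist_eq_norm, add_sub_cancel_left, norm_smul, Real.norm_eq_abs]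
        exact (hb (by simpa [Real.dist_eq, abs_le] using hs)).2
      have hball : ∀ s ∈ Icc (-r) r, p.1 + s • v ∈ Metric.closedBall p.1 δ := fun s hs =>
        ((hdist s hs).trans_le (min_le_right _ _)).le
      have hpos : 0 < φ (p.1 + r • v, p.2) := by
        have := (hb (x := r) (by simp [abs_of_pos hr])).1 hr.ne'
        rw [slope_def_field, h0, sub_zero, sub_zero] at this
        exact (div_pos_iff_of_pos_right hr).1 this
      have hneg : φ (p.1 + (-r) • v, p.2) < 0 := by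
        have := (hb (x := -r) (by simp [abs_of_pos hr])).1 (neg_ne_zero.2 hr.ne')
        rw [slope_def_field, h0, sub_zero, sub_zero, div_neg, neg_pos] at this
        by_contra hc
        exact absurd this (not_lt.2 (div_nonneg (not_lt.1 hc) hr.le))
      filter_upwards [hk, hin,
        (hJ _ (hball r ⟨by linarith, le_rfl⟩)).eventually (lt_mem_nhds hpos),
        (hJ _ (hball (-r) ⟨le_rfl, by linarith⟩)).eventually (gt_mem_nhds hneg)] with k a b c d
      have hc : ContinuousOn (fun s : ℝ => φk k (p.1 + s • v, tk k)) (Icc (-r) r) :=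
        a.sm.continuousOn.comp (by fun_prop) fun s hs => b _ (hball s hs)
      obtain ⟨s, hs, e⟩ := intermediate_value_Icc (by linarith) hc ⟨d.le, c.le⟩
      exact ⟨_, ⟨hball s hs, e⟩, (hdist s hs).trans_le (min_le_left _ _)⟩)
  refine ⟨xk, h1, ?_⟩
  filter_upwards [h2, hk, hin] with k a b c using (b.mem _ (c _ a.1)).2 a.2

theorem mem_of_conv {α : Type} {l : Filter α} [l.NeBot] {Fk : α → Mv} {Ω : Set ST}
    (H : Conv l Fk F Ω) {pk : α → ST} (hp : p ∈ Ω) (hpk : Tendsto pk l (𝓝 p))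
    (hM : ∀ᶠ k in l, pk k ∈ (Fk k).M) : p ∈ F.M := by
  by_contra hc
  obtain ⟨U, hU, hd⟩ := H.away p hp hc
  obtain ⟨k, a, b, c⟩ := (hd.and ((hpk.eventually hU).and hM)).exists
  exact disjoint_left.1 a b c

theorem convJetS_holds : ConvJetS := by
  intro α l _ Fk F Ω H
  refine ⟨fun pk p hp hpk hM => ?_, fun p hp hM tk htk => ?_⟩
  · have hpM := mem_of_conv H hp hpk hM
    obtain ⟨W, φ, φk, hW, h, hk, ht⟩ := H.near p hp hpM
    have J := jc_of_tlu h.isOpen h.sm (hk.mono fun _ a => a.sm) ht hW hpk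
    have hin := hpk.eventually (h.isOpen.mem_nhds hW)
    refine ⟨hpM, ?_, fun w a => ?_⟩
    · rw [V_eq_aV h hW hpM]
      refine (jc_aV J (gr_ne h hW)).val.congr' ?_
      filter_upwards [hk, hin, hM] with k a b c using (V_eq_aV a b c).symm
    · rw [DL_nu_eq h w a hW hpM]
      refine (jc_aDL J (gr_ne h hW) (jc_aNa J (gr_ne h hW) a) w).val.congr' ?_
      filter_upwards [hk, hin, hM] with k a' b c using (DL_nu_eq a' w a b c).symm
  · obtain ⟨W, φ, φk, hW, h, hk, ht⟩ := H.near p hp hM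
    exact exists_pts h hk ht hW hM htk

end Crest.Agent.N250.Cv

end
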